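import Vale.Agent.Lib.P071.Final

/-!
P071: the strict hot spots property for every first nontrivial Neumann eigenfunction of a thin
annular sector `{a < r < b, |θ| < α}` (`b < 2 a`, `b - a ≤ a α / 2`, `0 < α < π`).
-/

namespace Vale.Agent.Results.P071.AnnularSector

open Vale.Agent.Lib.P071

theorem result (a b α : ℝ) (ha : 0 < a) (hab : a < b) (hb : b < 2 * a) (h0 : 0 < α)
    (hα : α < Real.pi) (hwid : b - a ≤ a * α / 2) (u : ℝ × ℝ → ℝ)
    (hu : IsFirstEigen (sector a b α) u) (hc : ContinuousOn u (closure (sector a b α)))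
    (hne : ∃ x ∈ sector a b α, u x ≠ 0) :
    ∀ x ∈ sector a b α, (∃ p ∈ frontier (sector a b α), u p < u x) ∧
      (∃ q ∈ frontier (sector a b α), u x < u q) :=
  sector_hot_spots ha hab hb h0 hα hwid hu hc hne

end Vale.Agent.Results.P071.AnnularSector
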